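import Vale.Agent.P144.H365.Merge
import Vale.Agent.P144Z.St.Plus
import Vale.Agent.P144Z.Top

/-!
Power decay of the critical magnetisation, of spin correlations with arbitrary boundary
conditions, and of disorder correlations.
-/

namespace Vale.Agent.P144Z.MD

open Finset Vale.Agent.P144 Vale.Agent.P144.AL Vale.Agent.P144.H436 Vale.Agent.P144Z.St

theorem rp_le {a x y : ℝ} (hx : 0 < x) (ha : 0 < a) (h : x ≤ a * y) :
    y ^ (-(1 / 8) : ℝ) ≤ a ^ (1 / 8 : ℝ) * x ^ (-(1 / 8) : ℝ) := by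
  have h1 : x / a ≤ y := by rw [div_le_iff₀ ha]; linarith
  refine (Real.rpow_le_rpow_of_nonpos (by positivity) h1 (by norm_num)).trans (le_of_eq ?_)
  rw [Real.div_rpow hx.le ha.le, Real.rpow_neg ha.le, div_inv_eq_mul, mul_comm]

theorem rp_pow (C : ℝ) {r : ℝ} (hr : 0 ≤ r) (n : ℕ) :
    (C * r ^ (-(1 / 8) : ℝ)) ^ n = C ^ n * r ^ (-((n : ℝ) / 8)) := by
  rw [mul_pow, ← Real.rpow_mul_natCast hr]
  congr 2
  ring

/-- A sequence bounded by one with eventual power decay has power decay from the start. -/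
theorem decay_all {f : ℕ → ℝ} (h1 : ∀ L, f L ≤ 1) {C : ℝ} (hC : 0 < C) {L₀ : ℕ}
    (h : ∀ L ≥ L₀, f L ≤ C * (L : ℝ) ^ (-(1 / 8) : ℝ)) :
    ∃ C' : ℝ, 0 < C' ∧ ∀ L : ℕ, f L ≤ C' * ((L : ℝ) + 1) ^ (-(1 / 8) : ℝ) := by
  refine ⟨C * (2:ℝ) ^ (1 / 8 : ℝ) + ((L₀ : ℝ) + 1) ^ (1 / 8 : ℝ), by positivity, fun L => ?_⟩
  have hL : (0:ℝ) < (L : ℝ) + 1 := by positivity
  have p1 : 0 ≤ C * (2:ℝ) ^ (1 / 8 : ℝ) * ((L : ℝ) + 1) ^ (-(1 / 8) : ℝ) := by positivity
  have p2 : 0 ≤ ((L₀ : ℝ) + 1) ^ (1 / 8 : ℝ) * ((L : ℝ) + 1) ^ (-(1 / 8) : ℝ) := by positivity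
  rw [add_mul]
  by_cases hc : L₀ + 1 ≤ L
  · have h2 : (1:ℝ) ≤ L := by exact_mod_cast (by omega : 1 ≤ L)
    have h3 := rp_le (a := 2) (y := L) hL two_pos (by linarith)
    have h4 := mul_le_mul_of_nonneg_left h3 hC.le
    have h5 := h L (by omega)
    rw [← mul_assoc] at h4
    linarith
  · have h2 : (L : ℝ) ≤ L₀ := by exact_mod_cast (by omega : L ≤ L₀)
    have h3 := rp_le (a := (L₀ : ℝ) + 1) (y := 1) hL (by positivity) (by linarith)
    rw [Real.one_rpow] at h3
    linarith [h1 L]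

theorem dia_decay : ∃ C : ℝ, 0 < C ∧ ∀ L : ℕ,
    MM (dia L) {0} ≤ C * ((L : ℝ) + 1) ^ (-(1 / 8) : ℝ) := by
  obtain ⟨C, hC, L₀, h⟩ := M1_bound one_pos (H365.merge one_pos)
  exact decay_all (f := fun L => MM (dia L) {0}) (fun _ => MM_le_one _ _) hC h

theorem zd_le_d1 (u v : Site) : (zd u v : ℤ) ≤ d1 u v := by
  unfold zd d1
  have h1 := abs_nonneg (u.1 - v.1)
  have h2 := abs_nonneg (u.2 - v.2)
  push_cast
  exact max_le (by linarith) (by linarith)

/-- Decay of disorder correlations. -/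
theorem dis_decay (n : ℕ) : ∃ C : ℝ, 0 < C ∧ ∀ r : ℕ, 1 ≤ r → ∀ L R : Finset Site, R.card = n →
    (∀ u ∈ R, ∀ v ∈ R, u ≠ v → r < zd u v) → (∀ u ∈ R, ∀ v, zd v u ≤ r → v ∈ L) →
    MM L R.val ≤ C * (r : ℝ) ^ (-((n : ℝ) / 8)) := by
  obtain ⟨C, hC, h⟩ := dia_decay
  refine ⟨(C * (2:ℝ) ^ (1 / 8 : ℝ)) ^ n, by positivity, fun r hr L R hn hsep hin => ?_⟩
  set m := r / 2 with hm
  have h1 : MM L R.val ≤ ∏ z ∈ R, MM ((dia m).map (tr z).toEmbedding) R.val := by
    refine MM_le_prod R (fun z => (dia m).map (tr z).toEmbedding) ?_ ?_ _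
    · intro z hz w hw
      have a1 := mem_dia_tr.1 hw
      have a2 := zd_le_d1 w z
      exact hin z hz w (by omega)
    · intro z hz z' hz' hne
      rw [Finset.disjoint_left]
      intro w h1 h2
      rw [mem_dia_tr] at h1 h2
      have h3 := hsep z hz z' hz' hne
      have h4 := zd_le_d1 z z'
      unfold d1 at h1 h2 h4
      have a1 := abs_sub_le z.1 w.1 z'.1
      have a2 := abs_sub_le z.2 w.2 z'.2
      rw [abs_sub_comm z.1 w.1] at a1
      rw [abs_sub_comm z.2 w.2] at a2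
      omega
  have h2 : ∀ z ∈ R, MM ((dia m).map (tr z).toEmbedding) R.val = MM (dia m) {0} := by
    intro z hz
    have e : R.val = (R.erase z).val + {z} := by
      conv_lhs => rw [← Finset.insert_erase hz]
      rw [Finset.insert_val_of_notMem (Finset.notMem_erase z R), add_comm,
        Multiset.singleton_add]
    rw [e, MM_out_all, MM_one_tr]
    intro f hf
    have hf' : f ≠ z ∧ f ∈ R := Finset.mem_erase.1 hf
    refine out_dia ?_
    have h3 := hsep f hf'.2 z hz hf'.1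
    have h4 := zd_le_d1 f z
    omega
  rw [prod_congr rfl h2, prod_const, hn] at h1
  have hr' : (0:ℝ) < r := by exact_mod_cast hr
  have h3 : (r : ℝ) ≤ 2 * ((m : ℝ) + 1) := by exact_mod_cast (by omega : r ≤ 2 * (m + 1))
  have h4 := mul_le_mul_of_nonneg_left (rp_le hr' two_pos h3) hC.le
  rw [← mul_assoc] at h4
  rw [← rp_pow _ hr'.le]
  exact h1.trans (pow_le_pow_left₀ (MM_pos _ _).le ((h m).trans h4) n)

/-- Kramers-Wannier duality for one spin. -/
theorem plus_one {J : ℝ} (hJ : 0 < J) (M : ℕ) (x : Site) :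
    mag J (fb M) x = MM (P144.box M) {x} := by
  obtain ⟨C, hC, h⟩ := weight_plus hJ M
  unfold mag
  rw [gibbs_V0, MM_faces, ← mul_div_mul_left (∑ S ∈ (fb M).powerset, _) _ hC.ne', mul_sum,
    mul_sum]
  have e : ∀ g : Finset Site → ℝ, ∑ T ∈ (fb M).powerset, g T
      = ∑ S ∈ (fb M).powerset, g (fb M \ S) := by
    intro g
    refine sum_nbij' (fun T => fb M \ T) (fun T => fb M \ T) (fun T _ => by simp)
      (fun T _ => by simp) (fun T hT => ?_) (fun T hT => ?_) (fun T hT => ?_)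
    · exact Finset.sdiff_sdiff_eq_self (mem_powerset.1 hT)
    · exact Finset.sdiff_sdiff_eq_self (mem_powerset.1 hT)
    · rw [Finset.sdiff_sdiff_eq_self (mem_powerset.1 hT)]
  simp only [gibbs, P144.expect]
  rw [e, e fun T => Real.exp _]
  congr 1
  · refine sum_congr rfl fun S hS => ?_
    rw [h S (mem_powerset.1 hS), sp_ext_sdiff (mem_powerset.1 hS)]
    simp only [Multiset.map_singleton, Multiset.prod_singleton, ms]
    ring
  · exact sum_congr rfl fun S hS => h S (mem_powerset.1 hS)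

theorem mag_le_one (J : ℝ) (Λ : Finset Site) (x : Site) : mag J Λ x ≤ 1 := by
  unfold mag
  rw [gibbs_plus (window_win Λ)]
  unfold ev
  rw [div_le_one (P144.Z_pos _ _)]
  refine Finset.sum_le_sum fun s _ => ?_
  exact mul_le_of_le_one_left (wt_pos _ _ _).le ((le_abs_self _).trans (P144.abs_sp _).le)

theorem mag_le_dia {J : ℝ} (hJ : 0 < J) {M : ℕ} (hM : 1 ≤ M) :
    mag J (P144.box M) 0 ≤ MM (dia M) {0} := by
  have h1 : fb M ⊆ P144.box M := by
    intro y hy
    rw [mem_fb] at hy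
    rw [P144.mem_box]
    omega
  have h2 : dia M ⊆ P144.box M := by
    intro y hy
    rw [H436.mem_dia] at hy
    rw [H436.mem_box]
    have a1 := abs_nonneg y.1
    have a2 := abs_nonneg y.2
    constructor <;> linarith
  refine (mag_anti hJ h1 (by rw [mem_fb]; simp only [Prod.fst_zero, Prod.snd_zero]; omega)).trans ?_
  rw [plus_one hJ]
  exact MM_anti h2 _

/-- Decay of the magnetisation at the centre of a box, including the smallest box. -/
theorem mag_decay' {J : ℝ} (hJ : 0 < J) : ∃ C : ℝ, 0 < C ∧ ∀ M : ℕ,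
    mag J (P144.box M) 0 ≤ C * ((M : ℝ) + 1) ^ (-(1 / 8) : ℝ) := by
  obtain ⟨C, hC, h⟩ := dia_decay
  refine ⟨C + 1, by positivity, fun M => ?_⟩
  have p : (0:ℝ) ≤ ((M : ℝ) + 1) ^ (-(1 / 8) : ℝ) := by positivity
  rcases Nat.eq_zero_or_pos M with rfl | hM
  · have := mag_le_one J (P144.box 0) 0
    simp only [Nat.cast_zero, zero_add, Real.one_rpow]
    linarith
  · have := (mag_le_dia hJ hM).trans (h M)
    rw [add_mul]
    linarith

/-- Decay of the magnetisation at the centre of a box. -/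
theorem mag_decay {J : ℝ} (hJ : 0 < J) : ∃ C : ℝ, 0 < C ∧ ∀ M : ℕ, 1 ≤ M →
    mag J (P144.box M) 0 ≤ C * (M : ℝ) ^ (-(1 / 8) : ℝ) := by
  obtain ⟨C, hC, h⟩ := mag_decay' hJ
  refine ⟨C, hC, fun M hM => (h M).trans (mul_le_mul_of_nonneg_left ?_ hC.le)⟩
  have : (0:ℝ) < M := by exact_mod_cast hM
  exact Real.rpow_le_rpow_of_nonpos this (by linarith) (by norm_num)

section abs

variable {ι : Type*} [Fintype ι] [DecidableEq ι]

theorem neg_ev_le {K : ι → ι → ℝ} {h h' : ι → ℝ} (hK : ∀ i j, 0 ≤ K i j)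
    (hh : ∀ i, |h i| ≤ h' i) {f : (ι → Bool) → ℝ} (hf : Gin f) : -ev K h f ≤ ev K h' f := by
  have hexp : MP phi2 (fun p : ι → Bool × Bool =>
      ex K h' (fun i => (p i).1) + ex K h (fun i => (p i).2)) := by
    have h1 : MP phi2 (fun p : ι → Bool × Bool => ∑ i, ∑ j, K i j *
        (sp (p i).1 * sp (p j).1 + sp (p i).2 * sp (p j).2)) := by
      refine MP.sum _ fun i _ => MP.sum _ fun j _ => (MP.const (hK i j)).mul ?_
      exact ((Gin.spin i).mul (Gin.spin j)).1
    have h2 : MP phi2 (fun p : ι → Bool × Bool => ∑ i, ((h' i + h i) / 2 *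
        (sp (p i).1 + sp (p i).2) + (h' i - h i) / 2 * (sp (p i).1 - sp (p i).2))) := by
      refine MP.sum _ fun i _ => MP.add ?_ ?_
      · have := neg_abs_le (h i)
        exact (MP.const (by linarith [hh i])).mul (Gin.spin i).1
      · have := le_abs_self (h i)
        exact (MP.const (by linarith [hh i])).mul (Gin.spin i).2
    refine (h1.add h2).congr fun p => ?_
    unfold ex
    have e1 : ∑ i, ∑ j, K i j * (sp (p i).1 * sp (p j).1 + sp (p i).2 * sp (p j).2)
        = ∑ i, ∑ j, K i j * (sp (p i).1 * sp (p j).1)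
          + ∑ i, ∑ j, K i j * (sp (p i).2 * sp (p j).2) := by
      simp only [mul_add, Finset.sum_add_distrib]
    have e2 : ∑ i, ((h' i + h i) / 2 * (sp (p i).1 + sp (p i).2)
        + (h' i - h i) / 2 * (sp (p i).1 - sp (p i).2))
        = ∑ i, h' i * sp (p i).1 + ∑ i, h i * sp (p i).2 := by
      rw [← Finset.sum_add_distrib]
      exact Finset.sum_congr rfl fun i _ => by ring
    rw [e1, e2]
    ring
  have h1 := MP.nonneg nnm2 (hf.1.mul hexp.exp)
  simp only [Real.exp_add] at h1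
  rw [sum_pairs (fun s t => (f s + f t) * (Real.exp (ex K h' s) * Real.exp (ex K h t)))] at h1
  have h3 : ∑ s, ∑ t, (f s + f t) * (Real.exp (ex K h' s) * Real.exp (ex K h t))
      = (∑ s, f s * P144.wt K h' s) * (∑ s, P144.wt K h s)
        + (∑ s, f s * P144.wt K h s) * (∑ s, P144.wt K h' s) := by
    have e : ∀ s t, (f s + f t) * (Real.exp (ex K h' s) * Real.exp (ex K h t))
        = (f s * P144.wt K h' s) * P144.wt K h t + P144.wt K h' s * (f t * P144.wt K h t) := by
      intro s t; unfold P144.wt; ring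
    simp only [e, Finset.sum_add_distrib, ← Finset.mul_sum, ← Finset.sum_mul]
    ring
  rw [h3] at h1
  unfold ev
  rw [← neg_div, div_le_div_iff₀ (P144.Z_pos K h) (P144.Z_pos K h')]
  linarith

end abs

/-- All boundary conditions are dominated in absolute value by plus boundary conditions in a
smaller volume. -/
theorem abs_le_plus {β J lam : ℝ} (hβ : 0 ≤ β) (hJ : 0 ≤ J) (hl : 0 ≤ lam) (b : Option Config)
    {D Λ A : Finset Site} (hD : D ⊆ Λ) (hA : A ⊆ D) :
    |gibbs J lam Vk β b Λ (fun σ => ∏ x ∈ A, sp (σ x))|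
      ≤ gibbs J lam Vk β (some bcp) D (fun σ => ∏ x ∈ A, sp (σ x)) := by
  refine abs_le.2 ⟨?_, gibbs_le_plus hβ hJ hl b hD hA⟩
  rw [neg_le]
  refine le_trans ?_ (gibbs_le_plus hβ hJ hl (some bcp) hD hA)
  have hW := window_win Λ
  have hpf : ∀ u, 0 ≤ pf β J lam Λ (win Λ) u := fun u =>
    mul_nonneg hβ (Finset.sum_nonneg fun v _ => cpl_nonneg hJ hl _ _)
  have hG : Gin (fun s : Λ → Bool => ∏ x ∈ A, sp (exs Λ bcp s x)) :=
    Gin.prod _ fun x _ => gin_exs' x
  rw [gibbs_plus hW]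
  cases b with
  | none =>
    rw [gibbs_freeK]
    exact neg_ev_le (KK_nonneg hβ hJ hl Λ) (fun u => by rw [abs_zero]; exact hpf u) hG
  | some η =>
    rw [gibbs_knight J lam β hW]
    have e : (fun s : Λ → Bool => ∏ x ∈ A, sp (exs Λ η s x))
        = fun s => ∏ x ∈ A, sp (exs Λ bcp s x) := by
      funext s
      refine Finset.prod_congr rfl fun x hx => ?_
      rw [exs_mem (hD (hA hx)), exs_mem (hD (hA hx))]
    rw [e]
    refine neg_ev_le (KK_nonneg hβ hJ hl Λ) (fun u => ?_) hG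
    rw [← fld_bcp, abs_mul, abs_of_nonneg hβ]
    refine mul_le_mul_of_nonneg_left ?_ hβ
    unfold P144.fld
    refine (Finset.abs_sum_le_sum_abs _ _).trans (Finset.sum_le_sum fun v _ => ?_)
    split_ifs with h
    · rw [abs_mul, P144.abs_sp, mul_one]
      simp only [bcp, sp_true, mul_one]
      rw [abs_of_nonneg (cpl_nonneg hJ hl _ _)]
    · simp

/-- Far apart volumes are independent. -/
theorem plus_prodA {β J lam : ℝ} {D₁ D₂ : Finset Site} (hd : Disjoint D₁ D₂)
    (hc : ∀ u ∈ D₁, ∀ v ∈ D₂, cpl J lam u v = 0) {A₁ A₂ : Finset Site} (hx : A₁ ⊆ D₁)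
    (hy : A₂ ⊆ D₂) :
    gibbs J lam Vk β (some bcp) (D₁ ∪ D₂) (fun σ => ∏ z ∈ A₁ ∪ A₂, sp (σ z))
      = gibbs J lam Vk β (some bcp) D₁ (fun σ => ∏ z ∈ A₁, sp (σ z))
        * gibbs J lam Vk β (some bcp) D₂ (fun σ => ∏ z ∈ A₂, sp (σ z)) := by
  set D := D₁ ∪ D₂ with hDdef
  have hW := window_win D
  have hW₁ : Window D₁ (win D) := ⟨Finset.subset_union_left.trans hW.1,
    fun u hu v hv => hW.2 u (Finset.mem_union_left _ hu) v hv⟩
  have hW₂ : Window D₂ (win D) := ⟨Finset.subset_union_right.trans hW.1,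
    fun u hu v hv => hW.2 u (Finset.mem_union_right _ hu) v hv⟩
  rw [gibbs_plus hW, gibbs_plus hW₁, gibbs_plus hW₂]
  let e₁ : D₁ → D := fun i => ⟨i.1, Finset.mem_union_left _ i.2⟩
  let e₂ : D₂ → D := fun i => ⟨i.1, Finset.mem_union_right _ i.2⟩
  have hb : Function.Bijective (Sum.elim e₁ e₂) := by
    constructor
    · rintro (i | i) (j | j) hij
      · simp only [Sum.elim_inl, e₁, Subtype.mk.injEq] at hij
        rw [Subtype.ext hij]
      · simp only [Sum.elim_inl, Sum.elim_inr, e₁, e₂, Subtype.mk.injEq] at hij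
        exact absurd j.2 (hij ▸ Finset.disjoint_left.1 hd i.2)
      · simp only [Sum.elim_inl, Sum.elim_inr, e₁, e₂, Subtype.mk.injEq] at hij
        exact absurd i.2 (hij ▸ Finset.disjoint_left.1 hd j.2)
      · simp only [Sum.elim_inr, e₂, Subtype.mk.injEq] at hij
        rw [Subtype.ext hij]
    · rintro ⟨z, hz⟩
      rcases Finset.mem_union.1 hz with h | h
      · exact ⟨Sum.inl ⟨z, h⟩, rfl⟩
      · exact ⟨Sum.inr ⟨z, h⟩, rfl⟩
  have hpf₁ : ∀ u ∈ D₁, pf β J lam D (win D) u = pf β J lam D₁ (win D) u := by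
    intro u hu
    unfold pf
    congr 1
    refine Finset.sum_subset ?_ ?_
    · exact Finset.sdiff_subset_sdiff (subset_refl _) Finset.subset_union_left
    · intro v hv hv'
      rw [Finset.mem_sdiff] at hv hv'
      have : v ∈ D := by
        by_contra h; exact hv' ⟨hv.1, h⟩
      rcases Finset.mem_union.1 this with h | h
      · exact absurd h hv.2
      · exact hc u hu v h
  have hpf₂ : ∀ u ∈ D₂, pf β J lam D (win D) u = pf β J lam D₂ (win D) u := by
    intro u hu
    unfold pf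
    congr 1
    refine Finset.sum_subset ?_ ?_
    · exact Finset.sdiff_subset_sdiff (subset_refl _) Finset.subset_union_right
    · intro v hv hv'
      rw [Finset.mem_sdiff] at hv hv'
      have : v ∈ D := by
        by_contra h; exact hv' ⟨hv.1, h⟩
      rcases Finset.mem_union.1 this with h | h
      · rw [cpl_comm]; exact hc v h u hu
      · exact absurd h hv.2
  have hex : ∀ s : D → Bool, ex (P144.KK β J lam D) (fun i => pf β J lam D (win D) i) s
      = ex (P144.KK β J lam D₁) (fun i => pf β J lam D₁ (win D) i) (fun i => s (e₁ i))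
        + ex (P144.KK β J lam D₂) (fun i => pf β J lam D₂ (win D) i) (fun i => s (e₂ i)) := by
    intro s
    have hσ : ∀ i : D, exs D bcp s i = s i := fun i => exs_mem i.2
    rw [ex_eq_exS β J lam D (pf β J lam D (win D)) (σ := exs D bcp s) hσ,
      ex_eq_exS β J lam D₁ (pf β J lam D₁ (win D)) (σ := exs D bcp s) (fun i => hσ (e₁ i)),
      ex_eq_exS β J lam D₂ (pf β J lam D₂ (win D)) (σ := exs D bcp s) (fun i => hσ (e₂ i))]
    unfold exS
    have hA := double_union hd (fun u v => β / 2 * cpl J lam u v *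
      (sp (exs D bcp s u) * sp (exs D bcp s v))) (fun u v => by rw [cpl_comm]; ring)
    have hB := Finset.sum_union hd (f := fun u => pf β J lam D (win D) u * sp (exs D bcp s u))
    rw [← hDdef] at hA hB
    rw [hA, hB]
    have h0 : ∑ u ∈ D₁, ∑ v ∈ D₂, β / 2 * cpl J lam u v *
        (sp (exs D bcp s u) * sp (exs D bcp s v)) = 0 := by
      refine Finset.sum_eq_zero fun u hu => Finset.sum_eq_zero fun v hv => ?_
      rw [hc u hu v hv]; ring
    have h1 : ∑ u ∈ D₁, pf β J lam D (win D) u * sp (exs D bcp s u)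
        = ∑ u ∈ D₁, pf β J lam D₁ (win D) u * sp (exs D bcp s u) :=
      Finset.sum_congr rfl fun u hu => by rw [hpf₁ u hu]
    have h2 : ∑ u ∈ D₂, pf β J lam D (win D) u * sp (exs D bcp s u)
        = ∑ u ∈ D₂, pf β J lam D₂ (win D) u * sp (exs D bcp s u) :=
      Finset.sum_congr rfl fun u hu => by rw [hpf₂ u hu]
    rw [h0, h1, h2]
    ring
  rw [← ev_prod hb hex]
  congr 1
  funext s
  rw [Finset.prod_union (hd.mono hx hy)]
  congr 1
  · exact prod_congr rfl fun z hz => by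
      rw [exs_mem (Finset.mem_union_left _ (hx hz)), exs_mem (hx hz)]
  · exact prod_congr rfl fun z hz => by
      rw [exs_mem (Finset.mem_union_right _ (hy hz)), exs_mem (hy hz)]

/-- The plus state of a union of far apart volumes is the product of the plus states. -/
theorem plus_biUnion {β J lam : ℝ} (D : Site → Finset Site) (A : Finset Site)
    (hA : ∀ x ∈ A, x ∈ D x) (hd : ∀ x ∈ A, ∀ y ∈ A, x ≠ y → Disjoint (D x) (D y))
    (hc : ∀ x ∈ A, ∀ y ∈ A, x ≠ y → ∀ u ∈ D x, ∀ v ∈ D y, cpl J lam u v = 0) :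
    gibbs J lam Vk β (some bcp) (A.biUnion D) (fun σ => ∏ z ∈ A, sp (σ z))
      = ∏ x ∈ A, gibbs J lam Vk β (some bcp) (D x) (fun σ => sp (σ x)) := by
  induction A using Finset.induction_on with
  | empty =>
    rw [gibbs_plus (window_win _)]
    simp only [prod_empty, ev_const]
  | insert x A hx ih =>
    have hne : ∀ y ∈ A, x ≠ y := fun y hy h => hx (h ▸ hy)
    rw [biUnion_insert, prod_insert hx, ← ih (fun y hy => hA y (mem_insert_of_mem hy))
      (fun y hy z hz => hd y (mem_insert_of_mem hy) z (mem_insert_of_mem hz))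
      (fun y hy z hz => hc y (mem_insert_of_mem hy) z (mem_insert_of_mem hz)), insert_eq,
      plus_prodA]
    · simp only [prod_singleton]
    · rw [Finset.disjoint_biUnion_right]
      exact fun y hy => hd x (mem_insert_self _ _) y (mem_insert_of_mem hy) (hne y hy)
    · intro u hu v hv
      obtain ⟨y, hy, hv⟩ := mem_biUnion.1 hv
      exact hc x (mem_insert_self _ _) y (mem_insert_of_mem hy) (hne y hy) u hu v hv
    · exact singleton_subset_iff.2 (hA x (mem_insert_self _ _))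
    · exact fun y hy => mem_biUnion.2 ⟨y, hy, hA y (mem_insert_of_mem hy)⟩

theorem mem_boxAt_zd {t x : Site} {M : ℕ} : x ∈ boxAt t M ↔ zd x t ≤ M := by
  rw [mem_boxAt, abs_le, abs_le]
  unfold zd
  omega

/-- Spin correlations are bounded by the power of the magnetisation of a box. -/
theorem spin_le_pow {J : ℝ} (hJ : 0 < J) (m : ℕ) (V : Finset Site → ℝ) (b : Option Config)
    {L A : Finset Site} (hsep : ∀ u ∈ A, ∀ v ∈ A, u ≠ v → 2 * m + 1 < zd u v)
    (hin : ∀ u ∈ A, ∀ v, zd v u ≤ m → v ∈ L) :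
    |gibbs J 0 V (Kc / J) b L (fun σ => ∏ x ∈ A, sp (σ x))| ≤ mag J (P144.box m) 0 ^ A.card := by
  rw [gibbs_V0, ← gibbs_V0 J _ Vk]
  have hA : ∀ x ∈ A, x ∈ boxAt x m := fun x _ => by
    rw [mem_boxAt_zd]; unfold zd; omega
  refine (abs_le_plus (div_pos kc_pos hJ).le hJ.le le_rfl b
    (D := A.biUnion fun x => boxAt x m) ?_ ?_).trans (le_of_eq ?_)
  · intro v hv
    obtain ⟨u, hu, hv⟩ := mem_biUnion.1 hv
    exact hin u hu v (mem_boxAt_zd.1 hv)
  · exact fun y hy => mem_biUnion.2 ⟨y, hy, hA y hy⟩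
  · rw [plus_biUnion (fun x => boxAt x m) A hA, ← prod_const]
    · exact prod_congr rfl fun x _ => mag_boxAt m x
    · intro x hx y hy hne
      rw [Finset.disjoint_left]
      intro w h1 h2
      rw [mem_boxAt_zd] at h1 h2
      have := hsep x hx y hy hne
      unfold zd at h1 h2 this
      omega
    · intro x hx y hy hne u h1 v h2
      rw [mem_boxAt_zd] at h1 h2
      have h3 := hsep x hx y hy hne
      have h4 : dsq u v ≠ 1 := by
        intro h
        unfold dsq at h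
        have a1 : u.1 - v.1 ≤ 1 := by nlinarith [sq_nonneg (u.2 - v.2)]
        have a2 : -1 ≤ u.1 - v.1 := by nlinarith [sq_nonneg (u.2 - v.2)]
        have a3 : u.2 - v.2 ≤ 1 := by nlinarith [sq_nonneg (u.1 - v.1)]
        have a4 : -1 ≤ u.2 - v.2 := by nlinarith [sq_nonneg (u.1 - v.1)]
        unfold zd at h1 h2 h3
        omega
      unfold cpl
      rw [if_neg h4, ite_self]

/-- Decay of spin correlations, uniformly in the boundary condition. -/
theorem spin_decay {J : ℝ} (hJ : 0 < J) (n : ℕ) : ∃ C : ℝ, 0 < C ∧ ∀ r : ℕ, 1 ≤ r →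
    ∀ (b : Option Config) (L A : Finset Site), A.card = n →
    (∀ u ∈ A, ∀ v ∈ A, u ≠ v → r < zd u v) → (∀ u ∈ A, ∀ v, zd v u ≤ r → v ∈ L) →
    |gibbs J 0 (fun _ => 0) (Kc / J) b L (fun σ => ∏ x ∈ A, sp (σ x))|
      ≤ C * (r : ℝ) ^ (-((n : ℝ) / 8)) := by
  obtain ⟨C, hC, h⟩ := mag_decay' hJ
  refine ⟨(C * (2:ℝ) ^ (1 / 8 : ℝ)) ^ n, by positivity, fun r hr b L A hn hsep hin => ?_⟩
  set m := (r - 1) / 2 with hm
  have h1 := spin_le_pow hJ m (fun _ => 0) b (L := L) (A := A)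
    (fun u hu v hv hne => by have := hsep u hu v hv hne; omega)
    (fun u hu v hv => hin u hu v (by omega))
  have hr' : (0:ℝ) < r := by exact_mod_cast hr
  have h3 : (r : ℝ) ≤ 2 * ((m : ℝ) + 1) := by exact_mod_cast (by omega : r ≤ 2 * (m + 1))
  have h4 := mul_le_mul_of_nonneg_left (rp_le hr' two_pos h3) hC.le
  rw [← mul_assoc] at h4
  rw [← rp_pow _ hr'.le]
  rw [hn] at h1
  exact h1.trans (pow_le_pow_left₀ (mag_nonneg hJ _ _) ((h m).trans h4) n)

end Vale.Agent.P144Z.MD
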